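import Vale.Agent.P314.Words
import Mathlib.LinearAlgebra.FreeModule.Finite.Matrix

/-! Nested sums attached to words, their independence over a difference field, and the chain
lemma. -/

namespace Vale.Agent.P314.Ind

open Module Finset

variable {ι : Type*}

section Defs

variable {A : Type*} [CommRing A]

/-- The nested sum of a word `i₁ … i_d`: the sum over `m > m₁ > … > m_d ≥ 0` of the products
`a i₁ m₁ * … * a i_d m_d`. -/
def nsum (a : ι → ℕ → A) : List ι → ℕ → A
  | [], _ => 1
  | i :: w, m => ∑ k ∈ range m, a i k * nsum a w k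

@[simp] theorem nsum_nil (a : ι → ℕ → A) (m : ℕ) : nsum a [] m = 1 := by simp [nsum]

theorem nsum_cons (a : ι → ℕ → A) (i : ι) (w : List ι) (m : ℕ) :
    nsum a (i :: w) m = ∑ k ∈ range m, a i k * nsum a w k := by simp [nsum]

theorem nsum_cons_succ (a : ι → ℕ → A) (i : ι) (w : List ι) (m : ℕ) :
    nsum a (i :: w) (m + 1) = nsum a (i :: w) m + a i m * nsum a w m := by
  simp [nsum, sum_range_succ]

theorem nsum_zero (a : ι → ℕ → A) (w : List ι) :
    nsum a w 0 = if w = [] then 1 else 0 := by
  cases w <;> simp [nsum]

variable (F : Type*) [Field F] [Algebra F A]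

/-- The linear extension of the nested sums to the free algebra. -/
noncomputable def lam (a : ι → ℕ → A) (m : ℕ) : FreeAlgebra F ι →ₗ[F] A :=
  (wb F).constr F (fun w => nsum a w m)

theorem lam_wb (a : ι → ℕ → A) (m : ℕ) (w : List ι) : lam F a m (wb F w) = nsum a w m := by
  simp [lam]

@[simp] theorem lam_one (a : ι → ℕ → A) (m : ℕ) : lam F a m 1 = 1 := by
  rw [← wb_nil, lam_wb, nsum_nil]

theorem lam_var_mul (a : ι → ℕ → A) (m : ℕ) (j : ι) (g : FreeAlgebra F ι) :
    lam F a m (FreeAlgebra.ι F j * g) = ∑ k ∈ range m, a j k * lam F a k g := by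
  have : (lam F a m).comp (LinearMap.mulLeft F (FreeAlgebra.ι F j)) =
      ∑ k ∈ range m, (LinearMap.mulLeft F (a j k)).comp (lam F a k) := by
    refine (wb F).ext fun w => ?_
    simp only [LinearMap.comp_apply, LinearMap.mulLeft_apply, ← wb_cons, lam_wb, nsum_cons,
      LinearMap.sum_apply]
  simpa using LinearMap.congr_fun this g

theorem lam_eq_sum (a : ι → ℕ → A) (m : ℕ) (g : FreeAlgebra F ι) :
    lam F a m g = ((wb F).repr g).sum (fun w x => x • nsum a w m) := by
  rw [lam, Basis.constr_apply]

end Defs

section Indep

variable {L : Type*} [Field L] [Fintype ι]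

/-- Pairing of a coefficient vector with the nested sums. -/
noncomputable def ev (a : ι → ℕ → L) (m : ℕ) : (List ι →₀ L) →ₗ[L] L :=
  Finsupp.linearCombination L (fun w => nsum a w m)

/-- Left quotient of a coefficient vector. -/
noncomputable def tl (i : ι) : (List ι →₀ L) →ₗ[L] (List ι →₀ L) :=
  Finsupp.lcomapDomain (List.cons i) (List.cons_injective)

omit [Fintype ι] in
@[simp] theorem tl_apply (i : ι) (c : List ι →₀ L) (w : List ι) : tl i c w = c (i :: w) := rfl

theorem ev_succ (a : ι → ℕ → L) (m : ℕ) (c : List ι →₀ L) :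
    ev a (m + 1) c = ev a m c + ∑ i, a i m * ev a m (tl i c) := by
  classical
  induction c using Finsupp.induction_linear with
  | zero => simp
  | add c d hc hd =>
    simp only [map_add, hc, hd, mul_add, sum_add_distrib]
    ring
  | single w x =>
    cases w with
    | nil =>
      have : ∀ i : ι, tl i (Finsupp.single ([] : List ι) x) = 0 := by
        intro i
        ext v
        simp
      simp [this, ev]
    | cons j v =>
      have : ∀ i : ι, tl i (Finsupp.single (j :: v) x) =
          if i = j then Finsupp.single v x else 0 := by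
        intro i
        ext u
        by_cases h : i = j
        · subst h
          simp [Finsupp.single_apply]
        · simp [h]
      simp only [this, ev, Finsupp.linearCombination_single, nsum_cons_succ, smul_eq_mul]
      rw [sum_eq_single j]
      · simp only [if_true, Finsupp.linearCombination_single, smul_eq_mul]
        ring
      · intro i _ hi
        simp [hi]
      · simp

omit [Fintype ι] in
theorem ev_zero (a : ι → ℕ → L) (c : List ι →₀ L) : ev a 0 c = c [] := by
  classical
  induction c using Finsupp.induction_linear with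
  | zero => simp
  | add c d hc hd => simp [hc, hd]
  | single w x =>
    simp only [ev, Finsupp.linearCombination_single, nsum_zero, smul_eq_mul,
      Finsupp.single_apply]
    split_ifs <;> simp

/-- Apply the `k`-th power of `σ` to all coefficients. -/
noncomputable def tw (σ : L →+* L) (k : ℕ) (c : List ι →₀ L) : List ι →₀ L :=
  c.mapRange (σ ^ k) (map_zero _)

omit [Fintype ι] in
@[simp] theorem tw_apply (σ : L →+* L) (k : ℕ) (c : List ι →₀ L) (w : List ι) :
    tw σ k c w = (σ ^ k) (c w) := rfl

/-- A twisted linear relation between the nested sums. -/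
def IsRel (σ : L →+* L) (a : ι → ℕ → L) (c : List ι →₀ L) : Prop :=
  ∀ m, ev a m (tw σ m c) = 0

/-- The shifted relation. -/
noncomputable def shift (σ : L →+* L) (a : ι → ℕ → L) (c : List ι →₀ L) : List ι →₀ L :=
  tw σ 1 c + ∑ i, a i 0 • tl i (tw σ 1 c)

theorem shift_apply (σ : L →+* L) (a : ι → ℕ → L) (c : List ι →₀ L) (w : List ι) :
    shift σ a c w = σ (c w) + ∑ i, a i 0 * σ (c (i :: w)) := by
  simp [shift]

omit [Fintype ι] in
theorem pow_apply_a {σ : L →+* L} {a : ι → ℕ → L} (ha : ∀ i k, a i (k + 1) = σ (a i k))
    (i : ι) (k : ℕ) : (σ ^ k) (a i 0) = a i k := by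
  induction k with
  | zero => rfl
  | succ k ih => rw [pow_succ', RingHom.mul_def, RingHom.comp_apply, ih, ha]

theorem IsRel.shift_sub {σ : L →+* L} {a : ι → ℕ → L} (ha : ∀ i k, a i (k + 1) = σ (a i k))
    {c : List ι →₀ L} (hc : IsRel σ a c) : IsRel σ a (shift σ a c - c) := by
  intro m
  have h1 : tw σ m (shift σ a c - c) =
      tw σ (m + 1) c + ∑ i, a i m • tl i (tw σ (m + 1) c) - tw σ m c := by
    ext w
    simp only [tw_apply, Finsupp.sub_apply, Finsupp.add_apply, shift_apply, map_sub, map_add,
      map_sum, map_mul, pow_apply_a ha, Finsupp.finsetSum_apply, Finsupp.smul_apply, tl_apply,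
      smul_eq_mul, pow_succ, RingHom.mul_def, RingHom.comp_apply]
  have h2 := ev_succ a m (tw σ (m + 1) c)
  rw [hc (m + 1)] at h2
  rw [h1, map_sub, map_add, map_sum, hc m, sub_zero, h2]
  simp

omit [Fintype ι] in
theorem IsRel.smul {σ : L →+* L} {a : ι → ℕ → L} {c : List ι →₀ L} (hc : IsRel σ a c) (e : L) :
    IsRel σ a (e • c) := by
  intro m
  have h1 : tw σ m (e • c) = (σ ^ m) e • tw σ m c := by
    ext w
    simp
  rw [h1, map_smul, hc m, smul_zero]

/-- The elements `a i` are independent over the constants modulo differences `σ c - c`. -/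
def NoSol (σ : L →+* L) (b : ι → L) : Prop :=
  ∀ (c : L) (κ : ι → L), (∀ i, σ (κ i) = κ i) → σ c - c = ∑ i, κ i * b i → ∀ i, κ i = 0

theorem IsRel.eq_zero_aux {σ : L →+* L} {a : ι → ℕ → L} (ha : ∀ i k, a i (k + 1) = σ (a i k))
    (hns : NoSol σ (fun i => a i 0)) (d : ℕ) :
    ∀ c : List ι →₀ L, (∀ w, d ≤ w.length → c w = 0) → IsRel σ a c → c = 0 := by
  classical
  induction d with
  | zero =>
    intro c h _
    ext w
    exact h w (Nat.zero_le _)
  | succ d ih =>
    have key : ∀ k, ∀ c : List ι →₀ L, (∀ w, d + 1 ≤ w.length → c w = 0) →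
        (c.support.filter (fun w => w.length = d)).card ≤ k → IsRel σ a c → c = 0 := by
      intro k
      induction k with
      | zero =>
        intro c h1 h2 h3
        refine ih c (fun w hw => ?_) h3
        rcases hw.eq_or_lt with h | h
        · by_contra hne
          have : w ∈ c.support.filter (fun w => w.length = d) := by
            simp [hne, h]
          rw [Nat.le_zero, card_eq_zero] at h2
          simp [h2] at this
        · exact h1 w h
      | succ k ihk =>
        intro c h1 h2 h3
        by_cases h0 : (c.support.filter (fun w => w.length = d)).card ≤ k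
        · exact ihk c h1 h0 h3
        exfalso
        obtain ⟨w0, hw0⟩ : (c.support.filter (fun w => w.length = d)).Nonempty := by
          rw [← card_pos]
          omega
        have hw0' := mem_filter.1 hw0
        have hne : c w0 ≠ 0 := Finsupp.mem_support_iff.1 hw0'.1
        set c1 : List ι →₀ L := (c w0)⁻¹ • c with hc1
        have hc1w : ∀ w, c1 w = (c w0)⁻¹ * c w := fun w => by simp [hc1]
        have hone : c1 w0 = 1 := by rw [hc1w, inv_mul_cancel₀ hne]
        have hlong : ∀ w, d + 1 ≤ w.length → c1 w = 0 := fun w hw => by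
          rw [hc1w, h1 w hw, mul_zero]
        have hrel : IsRel σ a c1 := h3.smul _
        have htop : ∀ w, d ≤ w.length → (shift σ a c1 - c1) w = σ (c1 w) - c1 w := by
          intro w hw
          rw [Finsupp.sub_apply, shift_apply, sum_eq_zero, add_zero]
          intro i _
          rw [hlong (i :: w) (by simp; omega), map_zero, mul_zero]
        have hz : shift σ a c1 - c1 = 0 := by
          refine ihk _ (fun w hw => ?_) ?_ (hrel.shift_sub ha)
          · rw [htop w (by omega), hlong w hw, map_zero, sub_zero]
          · have hsub : ((shift σ a c1 - c1).support.filter (fun w => w.length = d)) ⊆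
                (c.support.filter (fun w => w.length = d)).erase w0 := by
              intro w hw
              obtain ⟨hw1, hw2⟩ := mem_filter.1 hw
              rw [Finsupp.mem_support_iff, htop w hw2.ge] at hw1
              refine mem_erase.2 ⟨?_, mem_filter.2 ⟨?_, hw2⟩⟩
              · rintro rfl
                exact hw1 (by rw [hone, map_one, sub_self])
              · rw [Finsupp.mem_support_iff]
                intro hc
                exact hw1 (by rw [hc1w, hc, mul_zero, map_zero, sub_self])
            have := card_le_card hsub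
            rw [card_erase_of_mem hw0] at this
            omega
        cases w0 with
        | nil =>
          have := hrel 0
          rw [ev_zero, tw_apply, hone, map_one] at this
          exact one_ne_zero this
        | cons i0 v =>
          have hfix : ∀ j, σ (c1 (j :: v)) = c1 (j :: v) := by
            intro j
            have h := htop (j :: v) (by
              have := hw0'.2
              simp only [List.length_cons] at this ⊢
              omega)
            rw [hz] at h
            exact (sub_eq_zero.1 h.symm)
          have hv : (shift σ a c1 - c1) v = 0 := by rw [hz]; rfl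
          rw [Finsupp.sub_apply, shift_apply] at hv
          have := hns (c1 v) (fun j => - c1 (j :: v)) (fun j => by rw [map_neg, hfix]) (by
            simp only [hfix] at hv
            simp only [neg_mul, sum_neg_distrib, mul_comm (c1 _)]
            linear_combination hv) i0
          rw [hone] at this
          exact one_ne_zero (neg_eq_zero.1 this)
    intro c h1 h3
    exact key _ c h1 le_rfl h3

theorem IsRel.eq_zero {σ : L →+* L} {a : ι → ℕ → L} (ha : ∀ i k, a i (k + 1) = σ (a i k))
    (hns : NoSol σ (fun i => a i 0)) {c : List ι →₀ L} (hc : IsRel σ a c) : c = 0 := by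
  refine IsRel.eq_zero_aux ha hns (c.support.sup List.length + 1) c (fun w hw => ?_) hc
  by_contra hne
  have := le_sup (f := List.length) (Finsupp.mem_support_iff.2 hne)
  omega

variable {F : Type*} [Field F] [Algebra F L]

/-- Independence of the nested sums. -/
theorem eq_zero_of_lam {σ : L →+* L} (hσ : ∀ x : F, σ (algebraMap F L x) = algebraMap F L x)
    {a : ι → ℕ → L} (ha : ∀ i k, a i (k + 1) = σ (a i k))
    (hns : NoSol σ (fun i => a i 0)) {f : FreeAlgebra F ι} (hf : ∀ m, lam F a m f = 0) :
    f = 0 := by
  have hpow : ∀ (m : ℕ) (x : F), (σ ^ m) (algebraMap F L x) = algebraMap F L x := by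
    intro m x
    induction m with
    | zero => rfl
    | succ m ih => rw [pow_succ', RingHom.mul_def, RingHom.comp_apply, ih, hσ]
  set c : List ι →₀ L := ((wb F).repr f).mapRange (algebraMap F L) (map_zero _) with hc
  have hrel : IsRel σ a c := by
    intro m
    have h1 : tw σ m c = c := by
      ext w
      simp [hc, hpow]
    rw [h1, ← hf m, lam_eq_sum, ev, Finsupp.linearCombination_apply, hc,
      Finsupp.sum_mapRange_index (by simp)]
    simp [Algebra.smul_def]
  have h0 := hrel.eq_zero ha hns
  have : (wb F).repr f = 0 := by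
    ext w
    have := DFunLike.congr_fun h0 w
    simpa [hc] using this
  simpa using this

end Indep

section Chain

/-- An orbit of a semilinear map in a space of dimension at most `r` is spanned by its first
`r` members. -/
theorem orbit_mem_span {L E : Type*} [Field L] [AddCommGroup E] [Module L E]
    [FiniteDimensional L E] (σ : L →+* L) (Θ : E →+ E) (hΘ : ∀ c x, Θ (c • x) = σ c • Θ x)
    (ρ : ℕ → E) (hρ : ∀ m, ρ (m + 1) = Θ (ρ m)) {r : ℕ} (hr : finrank L E ≤ r) (m : ℕ) :
    ρ m ∈ Submodule.span L (ρ '' Set.Iio r) := by
  set V : ℕ → Submodule L E := fun k => Submodule.span L (ρ '' Set.Iio k) with hV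
  have hmono : ∀ k l, k ≤ l → V k ≤ V l := fun k l h =>
    Submodule.span_mono (Set.image_mono (Set.Iio_subset_Iio h))
  have hmem : ∀ k l, k < l → ρ k ∈ V l := fun k l h =>
    Submodule.subset_span ⟨k, h, rfl⟩
  have hmap : ∀ k, ∀ x ∈ V k, Θ x ∈ V (k + 1) := by
    intro k x hx
    induction hx using Submodule.span_induction with
    | mem x hx =>
      obtain ⟨j, hj, rfl⟩ := hx
      rw [← hρ]
      exact hmem _ _ (Nat.succ_lt_succ hj)
    | zero => simp
    | add x y _ _ hx hy => rw [map_add]; exact add_mem hx hy
    | smul c x _ hx => rw [hΘ]; exact Submodule.smul_mem _ _ hx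
  have hstop : ∀ k, ρ k ∈ V k → ∀ m, ρ m ∈ V k := by
    intro k hk
    have hle : V (k + 1) ≤ V k := by
      refine Submodule.span_le.2 ?_
      rintro _ ⟨j, hj, rfl⟩
      rcases (Nat.lt_succ_iff.1 hj).eq_or_lt with h | h
      · rw [h]; exact hk
      · exact hmem _ _ h
    intro m
    induction m with
    | zero =>
      rcases Nat.eq_zero_or_pos k with h | h
      · rw [h] at hk ⊢; exact hk
      · exact hmem _ _ h
    | succ m ih => rw [hρ]; exact hle (hmap k _ ih)
  by_cases h : ∃ k, k ≤ r ∧ ρ k ∈ V k
  · obtain ⟨k, hk, hk'⟩ := h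
    exact hmono _ _ hk (hstop k hk' m)
  · exfalso
    push Not at h
    have hgrow : ∀ k, k ≤ r + 1 → k ≤ finrank L (V k) := by
      intro k
      induction k with
      | zero => intro _; exact Nat.zero_le _
      | succ k ih =>
        intro hk
        have hlt : V k < V (k + 1) := by
          refine lt_of_le_of_ne (hmono _ _ (Nat.le_succ k)) fun he => ?_
          exact h k (by omega) (he ▸ hmem k (k + 1) (Nat.lt_succ_self k))
        have := Submodule.finrank_lt_finrank_of_lt hlt
        have := ih (by omega)
        omega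
    have h1 := hgrow (r + 1) le_rfl
    have h2 := Submodule.finrank_le (V (r + 1))
    omega

variable {L : Type*} [Field L] [Fintype ι] [DecidableEq ι] {F : Type*} [Field F] [Algebra F L]

theorem lam_succ {σ : L →+* L} (hσ : ∀ x : F, σ (algebraMap F L x) = algebraMap F L x)
    {a : ι → ℕ → L} (ha : ∀ i k, a i (k + 1) = σ (a i k)) (m : ℕ) (g : FreeAlgebra F ι) :
    lam F a (m + 1) g = σ (lam F a m g) + ∑ i, a i 0 * σ (lam F a m (rq F i g)) := by
  have hsm : ∀ (x : F) (y : L), σ (x • y) = x • σ y := by
    intro x y
    rw [Algebra.smul_def, Algebra.smul_def, map_mul, hσ]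
  have hw : ∀ (w : List ι) (m : ℕ), lam F a (m + 1) (wb F w) =
      σ (lam F a m (wb F w)) + ∑ i, a i 0 * σ (lam F a m (rq F i (wb F w))) := by
    intro w
    induction w with
    | nil => intro m; simp
    | cons j v ih =>
      intro m
      have h1 : ∀ i, rq F i (wb F (j :: v)) =
          FreeAlgebra.ι F j * rq F i (wb F v) + if v = [] ∧ i = j then 1 else 0 := by
        intro i
        rw [rq_wb, rq_wb, rqw]
      have h2 : ∀ i, a i 0 * σ (lam F a m (if v = [] ∧ i = j then 1 else 0)) =
          if i = j then a j 0 * lam F a 0 (wb F v) else 0 := by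
        intro i
        rw [lam_wb, nsum_zero]
        by_cases hi : i = j
        · subst hi
          by_cases hv : v = [] <;> simp [hv]
        · simp [hi]
      simp only [h1, map_add, mul_add, h2, sum_add_distrib, sum_ite_eq', mem_univ, if_true]
      rw [wb_cons]
      simp only [lam_var_mul, map_sum, map_mul]
      rw [sum_range_succ']
      simp only [ih, ha, mul_add, sum_add_distrib, mul_sum]
      rw [add_assoc, sum_comm]
      congr 2
      refine sum_congr rfl fun i _ => sum_congr rfl fun k _ => ?_
      ring
  have hg : g ∈ Submodule.span F (Set.range (wb F (ι := ι))) := (wb F).mem_span g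
  induction hg using Submodule.span_induction with
  | mem x hx =>
    obtain ⟨w, rfl⟩ := hx
    exact hw w m
  | zero => simp
  | add x y _ _ hx hy =>
    simp only [map_add, hx, hy, mul_add, sum_add_distrib]
    ring
  | smul c x _ hx =>
    simp only [map_smul, hx, hsm, smul_add, smul_sum, mul_smul_comm]

/-- The abstract theorem: a nonzero polynomial whose right quotients span a space of dimension
at most `r` has a nonzero nested sum `lam F a m f` with `m < r`. -/
theorem exists_lam_ne_zero {σ : L →+* L} (hσ : ∀ x : F, σ (algebraMap F L x) = algebraMap F L x)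
    {a : ι → ℕ → L} (ha : ∀ i k, a i (k + 1) = σ (a i k))
    (hns : NoSol σ (fun i => a i 0)) {f : FreeAlgebra F ι} (hf : f ≠ 0) {r : ℕ}
    (hr : QuotDim f r) : ∃ m < r, lam F a m f ≠ 0 := by
  obtain ⟨W, hW, hdim, hfW, hcl⟩ := hr
  by_contra hcon
  push Not at hcon
  have hsm : ∀ (x : F) (y : L), σ (x • y) = x • σ y := by
    intro x y
    rw [Algebra.smul_def, Algebra.smul_def, map_mul, hσ]
  let σl : L →ₗ[F] L := { toFun := σ, map_add' := map_add σ, map_smul' := hsm }
  let R : ι → W →ₗ[F] W := fun i => (rq F i).restrict (hcl i)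
  let Θ : (W →ₗ[F] L) →+ (W →ₗ[F] L) :=
    { toFun := fun φ => σl.comp φ + ∑ i, a i 0 • σl.comp (φ.comp (R i))
      map_zero' := by simp
      map_add' := by
        intro φ ψ
        simp only [LinearMap.comp_add, LinearMap.add_comp, smul_add, sum_add_distrib]
        abel }
  have hΘa : ∀ (φ : W →ₗ[F] L) (x : W), Θ φ x = σ (φ x) + ∑ i, a i 0 * σ (φ (R i x)) := by
    intro φ x
    simp [Θ, σl]
  have hΘ : ∀ (c : L) (φ : W →ₗ[F] L), Θ (c • φ) = σ c • Θ φ := by
    intro c φ
    ext x
    simp only [hΘa, LinearMap.smul_apply, smul_eq_mul, map_mul, mul_add, mul_sum]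
    congr 1
    refine sum_congr rfl fun i _ => ?_
    ring
  let ρ : ℕ → (W →ₗ[F] L) := fun m => (lam F a m).comp W.subtype
  have hρ : ∀ m, ρ (m + 1) = Θ (ρ m) := by
    intro m
    ext x
    rw [hΘa]
    exact lam_succ hσ ha m x
  have hfin : finrank L (W →ₗ[F] L) ≤ r := by
    rw [Module.finrank_linearMap_self]
    exact hdim
  refine hf (eq_zero_of_lam hσ ha hns fun m => ?_)
  have hmem := orbit_mem_span σ Θ hΘ ρ hρ hfin m
  have hall : ∀ φ ∈ Submodule.span L (ρ '' Set.Iio r), φ ⟨f, hfW⟩ = 0 := by
    intro φ hφ
    induction hφ using Submodule.span_induction with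
    | mem x hx =>
      obtain ⟨k, hk, rfl⟩ := hx
      exact hcon k hk
    | zero => rfl
    | add x y _ _ hx hy => rw [LinearMap.add_apply, hx, hy, add_zero]
    | smul c x _ hx => rw [LinearMap.smul_apply, hx, smul_zero]
  exact hall _ hmem

end Chain

end Vale.Agent.P314.Ind
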