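import Vale.Agent.P314.Sums
import Vale.Agent.P314.Indep

/-! The abstract theorem for formulas. -/

namespace Vale.Agent.P314

theorem Formula.quotDim {F : Type*} [Field F] {n : ℕ} (p : Formula F n) :
    QuotDim p.poly (p.size + 1) := by
  induction p with
  | var i => exact QuotDim.var i
  | const a => exact (QuotDim.const a).mono (by simp)
  | add p q hp hq => exact (hp.add hq).mono (by simp only [Formula.size]; omega)
  | mul p q hp hq => exact (hp.mul hq).mono (by simp only [Formula.size]; omega)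

theorem S_eq_nsum {L : Type*} [CommRing L] {n : ℕ} (b : Fin n → ℕ → L) (w : List (Fin n)) :
    ∀ m, S b w m = Ind.nsum b w m := by
  induction w with
  | nil => intro m; simp
  | cons i w ih => intro m; simp only [S_cons, Ind.nsum_cons, ih]

theorem lam_eq_ind {F L : Type*} [Field F] [CommRing L] [Algebra F L] {n : ℕ}
    (b : Fin n → ℕ → L) (m : ℕ) (f : FreeAlgebra F (Fin n)) : lam b m f = Ind.lam F b m f := by
  rw [Ind.lam_eq_sum, lam, wb, Module.Basis.repr_reindex,
    Finsupp.sum_mapDomain_index_inj FreeMonoid.toList.injective]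
  simp only [S_eq_nsum]
  rfl

theorem exists_lam_ne_zero_of_quotDim {F L : Type*} [Field F] [Field L] [Algebra F L] {n : ℕ}
    (σ : L →ₐ[F] L) (a : Fin n → L)
    (hNoSol : ∀ (c : L) (cs : Fin n → L), (∀ i, σ (cs i) = cs i) →
      σ c - c = ∑ i, cs i * a i → ∀ i, cs i = 0)
    {f : FreeAlgebra F (Fin n)} (hf : f ≠ 0) {r : ℕ} (hr : QuotDim f r) :
    ∃ m < r, lam (fun i m => σ^[m] (a i)) m f ≠ 0 := by
  simp only [lam_eq_ind]
  exact Ind.exists_lam_ne_zero (σ := (σ : L →+* L)) (fun x => σ.commutes x)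
    (a := fun i m => σ^[m] (a i)) (fun i k => Function.iterate_succ_apply' _ _ _) hNoSol hf hr

theorem exists_lam_ne_zero {F L : Type*} [Field F] [Field L] [Algebra F L] {n : ℕ}
    (σ : L →ₐ[F] L) (a : Fin n → L)
    (hNoSol : ∀ (c : L) (cs : Fin n → L), (∀ i, σ (cs i) = cs i) →
      σ c - c = ∑ i, cs i * a i → ∀ i, cs i = 0)
    (p : Formula F n) (hp : p.poly ≠ 0) :
    ∃ m ≤ p.size, lam (fun i m => σ^[m] (a i)) m p.poly ≠ 0 := by
  obtain ⟨m, hm, h⟩ := exists_lam_ne_zero_of_quotDim σ a hNoSol hp p.quotDim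
  exact ⟨m, Nat.lt_succ_iff.1 hm, h⟩

end Vale.Agent.P314
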