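import Mathlib.Computability.TuringMachine.Computable
import Mathlib.Algebra.FreeAlgebra
import Mathlib.Data.Matrix.Basic

/-!
Noncommutative formulas, matrix hitting sets and their binary codes.
-/

namespace Vale.Agent.P314

universe u

/-- Noncommutative formulas over `F` in `n` variables: rooted trees whose leaves are variables or
scalars and whose inner vertices are binary addition gates or binary multiplication gates with
ordered inputs. -/
inductive Formula (F : Type u) (n : ℕ) : Type u
  | var (i : Fin n)
  | const (a : F)
  | add (p q : Formula F n)
  | mul (p q : Formula F n)

/-- The size of a formula: the number of its vertices, leaves included. -/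
def Formula.size {F : Type u} {n : ℕ} : Formula F n → ℕ
  | .var _ => 1
  | .const _ => 1
  | .add p q => p.size + q.size + 1
  | .mul p q => p.size + q.size + 1

/-- The noncommutative polynomial computed by a formula, an element of the free associative
algebra. -/
noncomputable def Formula.poly {F : Type u} [Field F] {n : ℕ} :
    Formula F n → FreeAlgebra F (Fin n)
  | .var i => FreeAlgebra.ι F i
  | .const a => algebraMap F (FreeAlgebra F (Fin n)) a
  | .add p q => p.poly + q.poly
  | .mul p q => p.poly * q.poly

/-- A tuple of `n` square matrices over `F` of a common dimension `d`. -/
structure Tuple (F : Type u) (n : ℕ) : Type u where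
  /-- the dimension -/
  d : ℕ
  /-- the matrices -/
  T : Fin n → Matrix (Fin d) (Fin d) F

/-- `H` is a hitting set for the polynomials computed by formulas of size at most `s`: every
nonzero such polynomial `f` has `f(T) ≠ 0` for some `T` in `H`. Here `FreeAlgebra.lift F T` is the
ordered matrix evaluation: the `F`-algebra homomorphism that sends `x_i` to `T_i`. -/
def IsHittingSet {F : Type u} [Field F] {n : ℕ} (s : ℕ) (H : List (Tuple F n)) : Prop :=
  ∀ p : Formula F n, p.size ≤ s → p.poly ≠ 0 → ∃ t ∈ H, FreeAlgebra.lift F t.T p.poly ≠ 0

/-- Binary code of a list of binary words: every bit of a member is preceded by `true`, and every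
member is followed by `false`. -/
def codeList (l : List (List Bool)) : List Bool :=
  l.flatMap fun w => (w.flatMap fun b => [true, b]) ++ [false]

/-- Binary code of a tuple of matrices, given binary codes `enc` of the field elements: the
dimension in binary, then the matrices, each row by row and entry by entry. -/
def Tuple.code {F : Type u} {n : ℕ} (enc : F → List Bool) (t : Tuple F n) : List Bool :=
  codeList [t.d.bits, codeList (List.ofFn fun i => codeList (List.ofFn fun j =>
    codeList (List.ofFn fun k => enc (t.T i j k))))]

/-- The input `(n, s)` in unary: `n` times `true`, then `false`, then `s` times `true`. -/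
def codeInput (x : ℕ × ℕ) : List Bool :=
  List.replicate x.1 true ++ false :: List.replicate x.2 true

end Vale.Agent.P314
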