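import Vale.Agent.P314.Transfer
import Vale.Agent.Lib.PolyTime.TypedTM2
import Vale.Agent.Lib.PolyTime.Lists2
import Vale.Agent.Lib.PolyTime.Lists3
import Vale.Agent.Lib.PolyTime.NatArith2
import Vale.Agent.Lib.PolyTime.Bitwise

/-!
The code of the explicit tuple of matrices is computable in polynomial time.
-/

namespace Vale.Agent.P314

open Vale.Agent.Lib.PolyTime

universe u

/-- The explicit tuple. -/
def tuple (F : Type u) [Field F] (n s : ℕ) : Tuple F n := ⟨base n s ^ 4, mat F n (base n s)⟩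

theorem pr_eq_flatMap (x y : List Bool) :
    pr x y = (x.flatMap fun b => [true, b]) ++ false :: y := by
  induction x with
  | nil => rfl
  | cons b x ih => simp [pr, ih]

theorem enc_list_eq {α : Type} [Enc α] (l : List α) : enc l = codeList (l.map enc) := by
  induction l with
  | nil => rfl
  | cons a l ih =>
    rw [enc_cons, pr_eq_flatMap, ih]
    simp [codeList]

theorem PT_raw {α β : Type} [Enc α] [Enc β] {f : α → β} (hf : PT ∅ f) :
    PT ∅ (fun a => Raw.mk (enc (f a))) := hf

/-- The matrices, as nested lists of words. -/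
def mats (c0 c1 : List Bool) (n s : ℕ) : List (List (List Raw)) :=
  (List.range n).map fun i => (List.range (base n s ^ 4)).map fun p =>
    (List.range (base n s ^ 4)).map fun q => bif bit (base n s) i p q then Raw.mk c1 else Raw.mk c0

/-- The output. -/
def out (c0 c1 : List Bool) (n s : ℕ) : List Raw :=
  [Raw.mk (enc [Raw.mk (enc (base n s ^ 4)), Raw.mk (enc (mats c0 c1 n s))])]

theorem ofFn_eq_map_range {α : Type*} {d : ℕ} (f : Fin d → α) (g : ℕ → α)
    (h : ∀ i : Fin d, f i = g i) : List.ofFn f = (List.range d).map g := by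
  apply List.ext_getElem
  · simp
  · intro i h1 h2
    simp [h]

theorem enc_out {F : Type u} [Field F] (e : F → List Bool) (n s : ℕ) :
    enc (out (e 0) (e 1) n s) = codeList ([tuple F n s].map (Tuple.code e)) := by
  rw [out, enc_list_eq]
  simp only [List.map_cons, List.map_nil, enc_raw]
  congr 2
  rw [enc_list_eq, Tuple.code]
  simp only [List.map_cons, List.map_nil, enc_raw]
  congr 3
  rw [enc_list_eq, mats, List.map_map]
  congr 1
  symm
  refine ofFn_eq_map_range _ _ fun i => ?_
  simp only [Function.comp_apply]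
  rw [enc_list_eq, List.map_map]
  congr 1
  refine ofFn_eq_map_range _ _ fun p => ?_
  simp only [Function.comp_apply]
  rw [enc_list_eq, List.map_map]
  congr 1
  refine ofFn_eq_map_range _ _ fun q => ?_
  simp only [Function.comp_apply, tuple, mat]
  cases bit (base n s) i p q <;> simp [enc_raw]

section

variable {α : Type} [Enc α]

theorem PT_dig {A p : α → ℕ} (hA : PT ∅ A) (hp : PT ∅ p) (k : ℕ) :
    PT ∅ (fun a => dig (A a) (p a) k) :=
  PT.mod (PT.div hp (PT.powConst hA k)) hA

theorem PT_bit {A i p q : α → ℕ} (hA : PT ∅ A) (hi : PT ∅ i) (hp : PT ∅ p) (hq : PT ∅ q) :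
    PT ∅ (fun a => bit (A a) (i a) (p a) (q a)) := by
  have hi1 : PT ∅ (fun a => i a + 1) := PT.add hi (PT.const 1)
  have q0 := PT_dig hA hq 0
  refine PT.decide_and (PT.lt q0 (PT_dig hA hp 0)) (PT.decide_and ?_ (PT.decide_and ?_ ?_))
  · exact PT.eqNat (PT_dig hA hp 1) (PT.add (PT_dig hA hq 1)
      (PT.mul hi1 (PT.div (PT.mul q0 (PT.sub q0 (PT.const 1))) (PT.const 2))))
  · exact PT.eqNat (PT_dig hA hp 2) (PT.add (PT_dig hA hq 2) (PT.mul hi1 q0))
  · exact PT.eqNat (PT_dig hA hp 3) (PT.add (PT_dig hA hq 3) hi1)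

theorem PT_base {n s : α → ℕ} (hn : PT ∅ n) (hs : PT ∅ s) : PT ∅ (fun a => base (n a) (s a)) :=
  PT.add (PT.add (PT.mul hs (PT.mul hn (PT.add (PT.mul hs hs) (PT.const 1)))) hs) (PT.const 1)

theorem PBd_base {n s : α → ℕ} (hn : PBd n) (hs : PBd s) : PBd (fun a => base (n a) (s a)) :=
  PBd.add (PBd.add (PBd.mul hs (PBd.mul hn (PBd.add (PBd.mul hs hs) (PBd.const 1)))) hs)
    (PBd.const 1)

theorem PT_mats (c0 c1 : List Bool) {n s : α → ℕ} (hn : PT ∅ n) (hs : PT ∅ s) (hn' : PBd n)
    (hs' : PBd s) : PT ∅ (fun a => mats c0 c1 (n a) (s a)) := by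
  have hA := PT_base hn hs
  have hr : PT ∅ (fun a => List.range (base (n a) (s a) ^ 4)) :=
    PT.range (PT.powConst hA 4) ((PBd_base hn' hs').pow 4)
  refine PT.map (PT.range hn hn') ?_
  refine PT.map (hr.comp PT.fst') ?_
  refine PT.map (hr.comp PT.fst'.fst) ?_
  refine PT.cond ?_ (PT.const _) (PT.const _)
  exact PT_bit (hA.comp PT.fst'.fst.fst) PT.fst'.fst.snd PT.fst'.snd PT.snd'

theorem PT_out (c0 c1 : List Bool) {n s : α → ℕ} (hn : PT ∅ n) (hs : PT ∅ s) (hn' : PBd n)
    (hs' : PBd s) : PT ∅ (fun a => out c0 c1 (n a) (s a)) :=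
  PT.cons (PT_raw (PT.cons (PT_raw (PT.powConst (PT_base hn hs) 4))
    (PT.cons (PT_raw (PT_mats c0 c1 hn hs hn' hs')) PT.nil))) PT.nil

end

/-- Reading `n` from the input. -/
def readN (w : Raw) : ℕ := (w.w.takeWhile fun b => b).length

/-- Reading `s` from the input. -/
def readS (w : Raw) : ℕ := w.w.length - (readN w + 1)

theorem readN_codeInput (x : ℕ × ℕ) : readN (Raw.mk (codeInput x)) = x.1 := by
  obtain ⟨n, s⟩ := x
  simp only [readN, codeInput]
  induction n with
  | zero => simp
  | succ n _ => simp [List.replicate_succ]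

theorem readS_codeInput (x : ℕ × ℕ) : readS (Raw.mk (codeInput x)) = x.2 := by
  rw [readS, readN_codeInput]
  simp [codeInput]
  omega

theorem PT_readN : PT ∅ readN :=
  PT.length (PT.takeWhile (PT.listOfRaw PT.id) PT.snd')

theorem PBd_readN : PBd readN :=
  PBd.length (PT.takeWhile (A := ∅) (PT.listOfRaw PT.id) PT.snd')

theorem PT_readS : PT ∅ readS :=
  PT.sub (PT.rawLength PT.id) (PT.add PT_readN (PT.const 1))

theorem PBd_readS : PBd readS :=
  PBd.esize.mono fun _ => Nat.sub_le _ _

/-- The code of the explicit tuple is computed in polynomial time from `(n, s)` in unary. -/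
theorem exists_machine {F : Type u} [Field F] (e : F → List Bool) :
    ∃ M : Turing.TM2ComputableInPolyTime codeInput (fun w : List Bool => w)
        (fun x : ℕ × ℕ => codeList ([tuple F x.1 x.2].map (Tuple.code e))),
      ∀ k, Finite (M.tm.Γ k) := by
  obtain ⟨g, hg, h⟩ := PT_out (e 0) (e 1) PT_readN PT_readS PBd_readN PBd_readS
  refine exists_tm2_of_polyTimeFun _ _ _ g (polyTimeFun_iff.2 hg) fun x => ?_
  have := h (Raw.mk (codeInput x))
  dsimp only at this
  rw [readN_codeInput, readS_codeInput, enc_out] at this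
  exact this

end Vale.Agent.P314
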