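import Mathlib.FieldTheory.RatFunc.AsPolynomial
import Mathlib.Algebra.Polynomial.Eval.Degree
import Mathlib.Algebra.Polynomial.BigOperators
import Mathlib.Tactic.FieldSimp
import Mathlib.Tactic.LinearCombination

/-!
The difference field `F(x)(y)(z)` with `x ↦ x`, `y ↦ x y`, `z ↦ y z`, and the fact that no nonzero
combination of the powers `z ^ (i + 1)` with constant coefficients is a difference `σ c - c`.
-/

namespace Vale.Agent.P314

open Polynomial

universe u

section Step

variable {E : Type u} [Field E]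

/-- The ring endomorphism of `E[X]` that acts by `τ` on coefficients and sends `X` to `u X`. -/
noncomputable def sigP (τ : E →+* E) (u : E) : E[X] →+* E[X] :=
  (compRingHom (C u * X)).comp (mapRingHom τ)

theorem sigP_coeff (τ : E →+* E) (u : E) (p : E[X]) (j : ℕ) :
    (sigP τ u p).coeff j = τ (p.coeff j) * u ^ j := by
  simp [sigP, coeff_map]

theorem sigP_C (τ : E →+* E) (u a : E) : sigP τ u (C a) = C (τ a) := by
  simp [sigP]

theorem sigP_X (τ : E →+* E) (u : E) : sigP τ u X = C u * X := by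
  simp [sigP]

theorem sigP_injective (τ : E →+* E) {u : E} (hu : u ≠ 0) : Function.Injective (sigP τ u) := by
  rw [injective_iff_map_eq_zero]
  intro p hp
  ext j
  have h := sigP_coeff τ u p j
  rw [hp, coeff_zero] at h
  have h2 : τ (p.coeff j) = 0 := by
    rcases mul_eq_zero.mp h.symm with h | h
    · exact h
    · exact absurd h (pow_ne_zero _ hu)
  simpa using h2

theorem sigP_ne_zero (τ : E →+* E) {u : E} (hu : u ≠ 0) {p : E[X]} (hp : p ≠ 0) :
    sigP τ u p ≠ 0 := fun h => hp (sigP_injective τ hu (by rw [h, map_zero]))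

theorem sigP_natDegree (τ : E →+* E) {u : E} (hu : u ≠ 0) (p : E[X]) :
    (sigP τ u p).natDegree = p.natDegree := by
  have hs : (sigP τ u p).support = p.support := by
    ext j
    simp [mem_support_iff, sigP_coeff, hu]
  rw [natDegree, natDegree, degree, degree, hs]

/-- The extension of `sigP` to rational functions. -/
noncomputable def sigR (τ : E →+* E) {u : E} (hu : u ≠ 0) : RatFunc E →+* RatFunc E :=
  IsFractionRing.lift (A := E[X]) (K := RatFunc E)
    (g := (algebraMap E[X] (RatFunc E)).comp (sigP τ u))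
    ((RatFunc.algebraMap_injective E).comp (sigP_injective τ hu))

theorem sigR_alg (τ : E →+* E) {u : E} (hu : u ≠ 0) (p : E[X]) :
    sigR τ hu (algebraMap E[X] (RatFunc E) p) = algebraMap E[X] (RatFunc E) (sigP τ u p) := by
  simp [sigR]

theorem sigR_C (τ : E →+* E) {u : E} (hu : u ≠ 0) (a : E) :
    sigR τ hu (RatFunc.C a) = RatFunc.C (τ a) := by
  rw [← RatFunc.algebraMap_C, sigR_alg, sigP_C, RatFunc.algebraMap_C]

theorem sigR_X (τ : E →+* E) {u : E} (hu : u ≠ 0) :
    sigR τ hu RatFunc.X = RatFunc.C u * RatFunc.X := by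
  rw [← RatFunc.algebraMap_X, sigR_alg, sigP_X, map_mul, RatFunc.algebraMap_C]

/-- No nonzero element is an eigenvector of `τ` for a nontrivial power of `u`. -/
def NoEig (τ : E →+* E) (u : E) : Prop :=
  ∀ (e : E) (j D : ℕ), τ e * u ^ j = u ^ D * e → e = 0 ∨ j = D

/-- Denominators of solutions of first order equations are powers of the variable. -/
theorem exists_num (τ : E →+* E) {u : E} (hu : u ≠ 0) (H : NoEig τ u) (c : RatFunc E)
    (v W : E[X])
    (h : algebraMap E[X] (RatFunc E) v * sigR τ hu c - c = algebraMap E[X] (RatFunc E) W) :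
    ∃ (D : ℕ) (P : E[X]), c * RatFunc.X ^ D = algebraMap E[X] (RatFunc E) P ∧
      v * sigP τ u P - C (u ^ D) * P = C (u ^ D) * X ^ D * W := by
  have hinj := RatFunc.algebraMap_injective E
  set P := c.num with hP
  set Q := c.denom with hQ
  have hQ0 : Q ≠ 0 := c.denom_ne_zero
  have hQm : Q.Monic := c.monic_denom
  have hQ1 : algebraMap E[X] (RatFunc E) Q ≠ 0 := fun h0 => hQ0 (hinj (by rw [h0, map_zero]))
  have hcQ : c * algebraMap E[X] (RatFunc E) Q = algebraMap E[X] (RatFunc E) P := by
    rw [← c.num_div_denom, ← hP, ← hQ, div_mul_cancel₀ _ hQ1]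
  have hsQ : sigR τ hu c * algebraMap E[X] (RatFunc E) (sigP τ u Q) =
      algebraMap E[X] (RatFunc E) (sigP τ u P) := by
    rw [← sigR_alg τ hu, ← sigR_alg τ hu, ← map_mul, hcQ]
  have key : v * sigP τ u P * Q - P * sigP τ u Q = W * Q * sigP τ u Q := by
    apply hinj
    simp only [map_sub, map_mul]
    rw [← h, ← hcQ, ← hsQ]
    ring
  have hdvd : Q ∣ sigP τ u Q := by
    have h1 : Q ∣ sigP τ u Q * P :=
      ⟨v * sigP τ u P - W * sigP τ u Q, by linear_combination -key⟩
    exact (c.isCoprime_num_denom.symm).dvd_of_dvd_mul_right h1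
  have hdeg := sigP_natDegree τ hu Q
  have heq : sigP τ u Q = C (u ^ Q.natDegree) * Q := by
    have := eq_leadingCoeff_mul_of_monic_of_dvd_of_natDegree_le hQm hdvd hdeg.le
    rw [this, leadingCoeff, hdeg, sigP_coeff]
    have h1 : Q.coeff Q.natDegree = 1 := hQm
    rw [h1, map_one, one_mul]
  have hQX : Q = X ^ Q.natDegree := by
    ext j
    have h1 := congrArg (fun p => coeff p j) heq
    simp only [sigP_coeff, coeff_C_mul] at h1
    rcases H _ _ _ h1 with h2 | h2
    · rw [coeff_X_pow, h2]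
      split_ifs with h3
      · rw [h3] at h2
        have h4 : Q.coeff Q.natDegree = 1 := hQm
        rw [h4] at h2
        exact absurd h2 one_ne_zero
      · rfl
    · rw [coeff_X_pow, if_pos h2, h2]
      exact hQm
  refine ⟨Q.natDegree, P, ?_, ?_⟩
  · rw [← hcQ]
    congr 1
    conv_rhs => rw [hQX]
    rw [map_pow, RatFunc.algebraMap_X]
  · apply mul_left_cancel₀ hQ0
    rw [heq] at key
    rw [← hQX]
    linear_combination key

/-- Fixed elements of the extension are fixed constants. -/
theorem fixed_eq_C (τ : E →+* E) {u : E} (hu : u ≠ 0) (H : NoEig τ u) (c : RatFunc E)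
    (h : sigR τ hu c = c) : ∃ e, τ e = e ∧ c = RatFunc.C e := by
  obtain ⟨D, P, h1, h2⟩ := exists_num τ hu H c 1 0 (by simp [h])
  have h3 : ∀ j, τ (P.coeff j) * u ^ j = u ^ D * P.coeff j := by
    intro j
    have h4 := congrArg (fun p => coeff p j) h2
    simp only [one_mul, mul_zero, coeff_sub, sigP_coeff, coeff_C_mul, coeff_zero] at h4
    exact sub_eq_zero.mp h4
  have h5 : P = C (P.coeff D) * X ^ D := by
    ext j
    rw [coeff_C_mul, coeff_X_pow]
    rcases H _ _ _ (h3 j) with h6 | h6
    · split_ifs with h7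
      · rw [h7, mul_one]
      · rw [h6, mul_zero]
    · rw [if_pos h6, h6, mul_one]
  refine ⟨P.coeff D, ?_, ?_⟩
  · have h6 := h3 D
    rw [mul_comm] at h6
    exact mul_left_cancel₀ (pow_ne_zero _ hu) h6
  · have hX : (RatFunc.X : RatFunc E) ^ D ≠ 0 := pow_ne_zero _ RatFunc.X_ne_zero
    apply mul_right_cancel₀ hX
    rw [h1]
    conv_lhs => rw [h5]
    rw [map_mul, map_pow, RatFunc.algebraMap_C, RatFunc.algebraMap_X]

/-- A polynomial difference gives first order equations one level below. -/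
theorem exists_coeff_eq (τ : E →+* E) {u : E} (hu : u ≠ 0) (H : NoEig τ u) (c : RatFunc E)
    (W : E[X]) (h : sigR τ hu c - c = algebraMap E[X] (RatFunc E) W) (k : ℕ) :
    ∃ p : E, u ^ k * τ p - p = W.coeff k := by
  obtain ⟨D, P, -, h2⟩ := exists_num τ hu H c 1 W (by simpa using h)
  refine ⟨P.coeff (k + D), ?_⟩
  have h4 := congrArg (fun p => coeff p (k + D)) h2
  simp only [one_mul, coeff_sub, sigP_coeff, coeff_C_mul, mul_assoc, coeff_X_pow_mul] at h4
  apply mul_left_cancel₀ (pow_ne_zero D hu)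
  rw [← h4]
  ring

/-- The equation `X ^ (k + 1) σ(p) - p = γ` with `γ` constant forces `γ = 0`. -/
theorem const_eq_zero (τ : E →+* E) {u : E} (hu : u ≠ 0) (H : NoEig τ u) (p : RatFunc E)
    (k : ℕ) (γ : E) (h : RatFunc.X ^ (k + 1) * sigR τ hu p - p = RatFunc.C γ) : γ = 0 := by
  obtain ⟨D, P, -, h2⟩ := exists_num τ hu H p (X ^ (k + 1)) (C γ)
    (by rw [map_pow, RatFunc.algebraMap_X, RatFunc.algebraMap_C, h])
  have hco : ∀ j, (if k + 1 ≤ j then τ (P.coeff (j - (k + 1))) * u ^ (j - (k + 1)) else 0) -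
      u ^ D * P.coeff j = if j = D then u ^ D * γ else 0 := by
    intro j
    have h4 := congrArg (fun p => coeff p j) h2
    simp only [coeff_sub, coeff_C_mul, mul_assoc, coeff_X_pow_mul', sigP_coeff, coeff_C] at h4
    rw [h4]
    split_ifs with h5 h6 h7 h8 <;> first | rfl | omega | simp
  have hlow : ∀ j, j < D → P.coeff j = 0 := by
    intro j
    induction j using Nat.strong_induction_on with
    | _ j ih =>
      intro hj
      have h5 := hco j
      rw [if_neg hj.ne] at h5
      have h6 : u ^ D * P.coeff j = 0 := by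
        split_ifs at h5 with h7
        · rw [ih (j - (k + 1)) (by omega) (by omega), map_zero, zero_mul, zero_sub,
            neg_eq_zero] at h5
          exact h5
        · rw [zero_sub, neg_eq_zero] at h5
          exact h5
      exact (mul_eq_zero.mp h6).resolve_left (pow_ne_zero _ hu)
  have hP : P = 0 := by
    by_contra hP
    have hlc : P.coeff P.natDegree ≠ 0 := mt leadingCoeff_eq_zero.mp hP
    have hD : D ≤ P.natDegree := by
      by_contra hlt
      exact hlc (hlow _ (not_le.mp hlt))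
    have h5 := hco (P.natDegree + (k + 1))
    rw [if_pos (by omega), if_neg (by omega), Nat.add_sub_cancel,
      coeff_eq_zero_of_natDegree_lt (by omega : P.natDegree < P.natDegree + (k + 1)), mul_zero,
      sub_zero] at h5
    rcases mul_eq_zero.mp h5 with h6 | h6
    · exact hlc (by simpa using h6)
    · exact pow_ne_zero _ hu h6
  have h5 := hco D
  rw [hP] at h5
  simp only [coeff_zero, map_zero, zero_mul, ite_self, mul_zero, sub_zero, if_true] at h5
  exact (mul_eq_zero.mp h5.symm).resolve_left (pow_ne_zero _ hu)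

/-- The new variable has no eigenvectors, by degrees. -/
theorem noEig_X (τ : E →+* E) {u : E} (hu : u ≠ 0) : NoEig (sigR τ hu) RatFunc.X := by
  intro c j D h
  by_cases hc : c = 0
  · exact Or.inl hc
  right
  have hinj := RatFunc.algebraMap_injective E
  set P := c.num with hP
  set Q := c.denom with hQ
  have hQ0 : Q ≠ 0 := c.denom_ne_zero
  have hP0 : P ≠ 0 := RatFunc.num_ne_zero hc
  have hQ1 : algebraMap E[X] (RatFunc E) Q ≠ 0 := fun h0 => hQ0 (hinj (by rw [h0, map_zero]))
  have hcQ : c * algebraMap E[X] (RatFunc E) Q = algebraMap E[X] (RatFunc E) P := by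
    rw [← c.num_div_denom, ← hP, ← hQ, div_mul_cancel₀ _ hQ1]
  have hsQ : sigR τ hu c * algebraMap E[X] (RatFunc E) (sigP τ u Q) =
      algebraMap E[X] (RatFunc E) (sigP τ u P) := by
    rw [← sigR_alg τ hu, ← sigR_alg τ hu, ← map_mul, hcQ]
  have key : sigP τ u P * Q * X ^ j = X ^ D * P * sigP τ u Q := by
    apply hinj
    simp only [map_mul, map_pow, RatFunc.algebraMap_X]
    rw [← hcQ, ← hsQ]
    linear_combination
      (algebraMap E[X] (RatFunc E) (sigP τ u Q) * algebraMap E[X] (RatFunc E) Q) * h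
  have h1 := congrArg natDegree key
  have hX : ∀ m : ℕ, (X : E[X]) ^ m ≠ 0 := fun m => pow_ne_zero _ X_ne_zero
  have hsP := sigP_ne_zero τ hu hP0
  have hsQ' := sigP_ne_zero τ hu hQ0
  rw [natDegree_mul (mul_ne_zero hsP hQ0) (hX _), natDegree_mul hsP hQ0,
    natDegree_mul (mul_ne_zero (hX _) hP0) hsQ', natDegree_mul (hX _) hP0, sigP_natDegree τ hu,
    sigP_natDegree τ hu, natDegree_X_pow, natDegree_X_pow] at h1
  omega

theorem noEig_id : NoEig (RingHom.id (RatFunc E)) RatFunc.X := by
  intro c j D h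
  by_cases hc : c = 0
  · exact Or.inl hc
  right
  rw [RingHom.id_apply, mul_comm] at h
  have h1 := mul_right_cancel₀ hc h
  rw [← RatFunc.algebraMap_X, ← map_pow, ← map_pow] at h1
  have h2 := congrArg natDegree (RatFunc.algebraMap_injective E h1)
  simpa using h2

end Step

/-- The difference field used for the hitting set. -/
theorem exists_tower (F : Type u) [Field F] :
    ∃ (L : Type u) (_ : Field L) (_ : Algebra F L) (sigma : L →ₐ[F] L) (x y z : L),
      sigma x = x ∧ sigma y = x * y ∧ sigma z = y * z ∧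
      ∀ (n : ℕ) (c : L) (cs : Fin n → L), (∀ i, sigma (cs i) = cs i) →
        sigma c - c = ∑ i, cs i * z ^ (i.val + 1) → ∀ i, cs i = 0 := by
  let E0 := RatFunc F
  let E1 := RatFunc E0
  let L := RatFunc E1
  have hx : (RatFunc.X : E0) ≠ 0 := RatFunc.X_ne_zero
  have hy : (RatFunc.X : E1) ≠ 0 := RatFunc.X_ne_zero
  let τ1 : E1 →+* E1 := sigR (RingHom.id E0) hx
  let τ2 : L →+* L := sigR τ1 hy
  let ι : F →+* L := (RatFunc.C : E1 →+* L).comp ((RatFunc.C : E0 →+* E1).comp RatFunc.C)
  let alg : Algebra F L := ι.toAlgebra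
  have h1C : ∀ a : E0, τ1 (RatFunc.C a) = RatFunc.C a := fun a => sigR_C _ hx a
  have h1X : τ1 RatFunc.X = RatFunc.C (RatFunc.X : E0) * RatFunc.X := sigR_X _ hx
  have h2C : ∀ a : E1, τ2 (RatFunc.C a) = RatFunc.C (τ1 a) := fun a => sigR_C _ hy a
  have h2X : τ2 RatFunc.X = RatFunc.C (RatFunc.X : E1) * RatFunc.X := sigR_X _ hy
  have hι : ∀ a, τ2 (ι a) = ι a := by
    intro a
    simp only [ι, RingHom.comp_apply, h2C, h1C]
  let sigma : L →ₐ[F] L := { τ2 with commutes' := hι }
  have hs : ∀ a, sigma a = τ2 a := fun _ => rfl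
  have H0 : NoEig (RingHom.id E0) RatFunc.X := noEig_id
  have H1 : NoEig τ1 RatFunc.X := noEig_X _ hx
  refine ⟨L, inferInstance, alg, sigma, RatFunc.C (RatFunc.C (RatFunc.X : E0) : E1),
    RatFunc.C (RatFunc.X : E1), RatFunc.X, ?_, ?_, ?_, ?_⟩
  · rw [hs, h2C, h1C]
  · rw [hs, h2C, h1X, map_mul]
  · rw [hs, h2X]
  · intro n c cs hcs h
    have hγ : ∀ i, ∃ γ : E0, cs i = RatFunc.C (RatFunc.C γ) := by
      intro i
      obtain ⟨e, he, h1⟩ := fixed_eq_C τ1 hy H1 (cs i) (hcs i)
      obtain ⟨γ, -, h2⟩ := fixed_eq_C (RingHom.id E0) hx H0 e he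
      exact ⟨γ, by rw [h1, h2]⟩
    choose γ hγ using hγ
    intro i
    obtain ⟨p, hp⟩ := exists_coeff_eq τ1 hy H1 c
      (∑ i : Fin n, C (RatFunc.C (γ i)) * X ^ (i.val + 1)) (by
        rw [← hs, h, map_sum]
        refine Finset.sum_congr rfl fun j _ => ?_
        rw [map_mul, map_pow, RatFunc.algebraMap_C, RatFunc.algebraMap_X, hγ]) (i.val + 1)
    have hco : (∑ j : Fin n, C (RatFunc.C (γ j) : E1) * X ^ (j.val + 1)).coeff (i.val + 1) =
        RatFunc.C (γ i) := by
      rw [finsetSum_coeff, Finset.sum_eq_single i]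
      · rw [coeff_C_mul, coeff_X_pow, if_pos rfl, mul_one]
      · intro j _ hj
        rw [coeff_C_mul, coeff_X_pow, if_neg, mul_zero]
        intro h1
        exact hj (Fin.ext (by omega))
      · intro h1
        exact absurd (Finset.mem_univ _) h1
    rw [hco] at hp
    have h0 := const_eq_zero (RingHom.id E0) hx H0 p i.val (γ i) hp
    rw [hγ, h0, map_zero, map_zero]

end Vale.Agent.P314
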