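import Vale.Agent.P314.Machine
import Vale.Agent.P314.Abstract
import Vale.Agent.P314.Tower

/-!
Assembly: the explicit tuple is a hitting set.
-/

namespace Vale.Agent.P314

universe u

theorem isHittingSet_tuple (F : Type u) [Field F] (n s : ℕ) : IsHittingSet s [tuple F n s] := by
  intro p hs hp
  obtain ⟨L, _, _, σ, x, y, z, hx, hy, hz, h⟩ := exists_tower F
  obtain ⟨m, hm, h0⟩ := exists_lam_ne_zero σ (fun i : Fin n => z ^ (i.val + 1)) (h n) p hp
  refine ⟨tuple F n s, List.mem_singleton_self _, lift_mat_ne_zero x y z (hm.trans hs) _ ?_⟩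
  have : (fun (i : Fin n) m => σ^[m] (z ^ (i.val + 1))) = mon x y z :=
    funext fun i => funext fun m => iterate_eq_mon σ hx hy hz i m
  rwa [this] at h0

theorem base_le (n s : ℕ) : base n s ≤ (n + 1) * (s + 1) ^ 3 := by
  have h : (n + 1) * (s + 1) ^ 3 =
      base n s + (n * (3 * s * s + 2 * s + 1) + s * s * s + 3 * s * s + 2 * s) := by
    unfold base
    ring
  omega

theorem main (F : Type u) [Field F] (enc : F → List Bool) :
    ∃ H : (n : ℕ) → ℕ → List (Tuple F n),
      (∀ n s, IsHittingSet s (H n s)) ∧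
      (∃ M : Turing.TM2ComputableInPolyTime codeInput (fun w : List Bool => w)
          (fun x : ℕ × ℕ => codeList ((H x.1 x.2).map (Tuple.code enc))),
        ∀ k, Finite (M.tm.Γ k)) ∧
      ∀ n s, (H n s).length = 1 ∧ ∀ t ∈ H n s, t.d ≤ ((n + 1) * (s + 1) ^ 3) ^ 4 ∧
        ∀ i j k, t.T i j k = 0 ∨ t.T i j k = 1 := by
  refine ⟨fun n s => [tuple F n s], isHittingSet_tuple F, exists_machine enc,
    fun n s => ⟨rfl, ?_⟩⟩
  intro t ht
  obtain rfl := List.mem_singleton.1 ht
  refine ⟨Nat.pow_le_pow_left (base_le n s) 4, fun i j k => ?_⟩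
  simp only [tuple, mat]
  split_ifs <;> simp

end Vale.Agent.P314
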