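import Vale.Agent.P314.Defs
import Mathlib.Algebra.MonoidAlgebra.Basic
import Mathlib.Algebra.BigOperators.Fin

/-!
Nested sums `S b w m` and the functionals `lam b m` on the free algebra.
-/

namespace Vale.Agent.P314

/-- The nested sum over `m > m_1 > ... > m_d` of the products of the `b i_k m_k`. -/
def S {L : Type*} [CommRing L] {n : ℕ} (b : Fin n → ℕ → L) : List (Fin n) → ℕ → L
  | [], _ => 1
  | i :: w, m => ∑ m' ∈ Finset.range m, b i m' * S b w m'

@[simp] theorem S_nil {L : Type*} [CommRing L] {n : ℕ} (b : Fin n → ℕ → L) (m : ℕ) :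
    S b [] m = 1 := rfl

theorem S_cons {L : Type*} [CommRing L] {n : ℕ} (b : Fin n → ℕ → L) (i : Fin n)
    (w : List (Fin n)) (m : ℕ) :
    S b (i :: w) m = ∑ m' ∈ Finset.range m, b i m' * S b w m' := rfl

/-- The coefficients of a noncommutative polynomial. -/
noncomputable def cf {F : Type*} [Field F] {n : ℕ} (f : FreeAlgebra F (Fin n)) :
    FreeMonoid (Fin n) →₀ F :=
  (FreeAlgebra.equivMonoidAlgebraFreeMonoid f).coeff

/-- The functional which sends the word `w` to `S b w m`. -/
noncomputable def lam {F L : Type*} [Field F] [CommRing L] [Algebra F L] {n : ℕ}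
    (b : Fin n → ℕ → L) (m : ℕ) (f : FreeAlgebra F (Fin n)) : L :=
  (cf f).sum fun w c => c • S b (FreeMonoid.toList w) m

/-- Evaluation of a noncommutative polynomial, word by word. -/
theorem lift_eq_sum {F A : Type*} [Field F] [Ring A] [Algebra F A] {n : ℕ} (T : Fin n → A)
    (f : FreeAlgebra F (Fin n)) :
    FreeAlgebra.lift F T f = (cf f).sum fun w c => c • ((FreeMonoid.toList w).map T).prod := by
  have h : FreeAlgebra.lift F T =
      (MonoidAlgebra.lift F A (FreeMonoid (Fin n)) (FreeMonoid.lift T)).comp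
        (FreeAlgebra.equivMonoidAlgebraFreeMonoid (R := F) (X := Fin n)).toAlgHom := by
    ext i
    simp [FreeAlgebra.equivMonoidAlgebraFreeMonoid]
  rw [h]
  simp only [AlgHom.comp_apply]
  rw [MonoidAlgebra.lift_apply]
  simp only [FreeMonoid.lift_apply]
  rfl

end Vale.Agent.P314
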