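import Vale.Agent.P314.Sums
import Mathlib.Data.Matrix.Mul
import Mathlib.Data.Nat.Choose.Basic
import Mathlib.Tactic

/-!
The explicit matrices with entries 0 and 1, and the transfer from the nested sums of monomials to
these matrices.
-/

namespace Vale.Agent.P314

open Finset

/-- Digit number `k` of `p` in base `A`. -/
def dig (A p k : ℕ) : ℕ := p / A ^ k % A

/-- The base used for `n` variables and size `s`. -/
def base (n s : ℕ) : ℕ := s * (n * (s * s + 1)) + s + 1

/-- The entry of the matrix number `i` in row `p` and column `q`. -/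
def bit (A i p q : ℕ) : Bool :=
  decide (dig A q 0 < dig A p 0 ∧
    dig A p 1 = dig A q 1 + (i + 1) * (dig A q 0 * (dig A q 0 - 1) / 2) ∧
    dig A p 2 = dig A q 2 + (i + 1) * dig A q 0 ∧ dig A p 3 = dig A q 3 + (i + 1))

/-- The matrices. -/
def mat (F : Type*) [Field F] (n A : ℕ) (i : Fin n) : Matrix (Fin (A ^ 4)) (Fin (A ^ 4)) F :=
  fun p q => if bit A i p q then 1 else 0

theorem dig_ext {A : ℕ} {p q : Fin (A ^ 4)} (h0 : dig A p 0 = dig A q 0)
    (h1 : dig A p 1 = dig A q 1) (h2 : dig A p 2 = dig A q 2) (h3 : dig A p 3 = dig A q 3) :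
    p = q := by
  apply (finFunctionFinEquiv (m := A) (n := 4)).symm.injective
  funext k
  apply Fin.ext
  rw [finFunctionFinEquiv_symm_apply_val, finFunctionFinEquiv_symm_apply_val]
  fin_cases k
  · exact h0
  · exact h1
  · exact h2
  · exact h3

theorem exists_dig {A m a b c : ℕ} (hm : m < A) (ha : a < A) (hb : b < A) (hc : c < A) :
    ∃ p : Fin (A ^ 4), dig A p 0 = m ∧ dig A p 1 = a ∧ dig A p 2 = b ∧ dig A p 3 = c := by
  let f : Fin 4 → Fin A := ![⟨m, hm⟩, ⟨a, ha⟩, ⟨b, hb⟩, ⟨c, hc⟩]
  have h : ∀ k : Fin 4, dig A (finFunctionFinEquiv f : Fin (A ^ 4)) k = f k := by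
    intro k
    have := finFunctionFinEquiv_symm_apply_val (m := A) (n := 4) (finFunctionFinEquiv f) k
    rw [Equiv.symm_apply_apply] at this
    exact this.symm
  exact ⟨finFunctionFinEquiv f, h 0, h 1, h 2, h 3⟩

section

variable {F L : Type*} [Field F] [CommRing L] [Algebra F L] {n : ℕ}

/-- The monomials `(x ^ C(m,2) * y ^ m * z) ^ (i + 1)`. -/
def mon (x y z : L) (i : Fin n) (m : ℕ) : L := (x ^ (m * (m - 1) / 2) * y ^ m * z) ^ (i.val + 1)

/-- The monomial attached to an index. -/
def monIdx (x y z : L) (A p : ℕ) : L := x ^ dig A p 1 * y ^ dig A p 2 * z ^ dig A p 3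

/-- The element of `L` described by the part of level `m` of a vector. -/
def ev (x y z : L) (A m : ℕ) (u : Fin (A ^ 4) → F) : L :=
  ∑ p : Fin (A ^ 4), if dig A p 0 = m then u p • monIdx x y z A p else 0

/-- The support condition. -/
def Good (B s A : ℕ) (u : Fin (A ^ 4) → F) : Prop :=
  ∀ p : Fin (A ^ 4), u p ≠ 0 → dig A p 0 ≤ s →
    dig A p 1 ≤ dig A p 0 * B ∧ dig A p 2 ≤ dig A p 0 * B ∧ dig A p 3 ≤ dig A p 0 * B

theorem step_le {n s i m : ℕ} (hi : i < n) (hm : m ≤ s) :
    (i + 1) * (m * (m - 1) / 2) ≤ n * (s * s + 1) ∧ (i + 1) * m ≤ n * (s * s + 1) ∧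
      i + 1 ≤ n * (s * s + 1) := by
  have h1 : m * (m - 1) / 2 ≤ s * s + 1 := by
    have : m * (m - 1) ≤ s * s := Nat.mul_le_mul hm (by omega)
    omega
  have h2 : m ≤ s * s + 1 := by nlinarith
  refine ⟨Nat.mul_le_mul hi h1, Nat.mul_le_mul hi h2, ?_⟩
  calc i + 1 = (i + 1) * 1 := (mul_one _).symm
    _ ≤ n * (s * s + 1) := Nat.mul_le_mul hi (by omega)

theorem Good.mulVec {s A : ℕ} {u : Fin (A ^ 4) → F} (hu : Good (n * (s * s + 1)) s A u)
    (i : Fin n) : Good (n * (s * s + 1)) s A ((mat F n A i).mulVec u) := by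
  intro p hp hps
  have hp' : ∑ q : Fin (A ^ 4), mat F n A i p q * u q ≠ 0 := hp
  obtain ⟨q, -, hq⟩ := Finset.exists_ne_zero_of_sum_ne_zero hp'
  have hb : bit A i p q = true := by
    by_contra hb
    simp [mat, hb] at hq
  have huq : u q ≠ 0 := right_ne_zero_of_mul hq
  simp only [bit, decide_eq_true_eq] at hb
  obtain ⟨h0, h1, h2, h3⟩ := hb
  obtain ⟨g1, g2, g3⟩ := hu q huq (by omega)
  obtain ⟨e1, e2, e3⟩ := step_le (n := n) (s := s) (m := dig A q 0) i.isLt (by omega)
  have key : dig A q 0 * (n * (s * s + 1)) + n * (s * s + 1) ≤ dig A p 0 * (n * (s * s + 1)) := by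
    rw [← Nat.succ_mul]
    exact Nat.mul_le_mul_right _ h0
  omega

theorem ev_mulVec (x y z : L) {s m A : ℕ} (hA : A = base n s) {u : Fin (A ^ 4) → F}
    (hu : Good (n * (s * s + 1)) s A u) (i : Fin n) (hm : m ≤ s) :
    ev x y z A m ((mat F n A i).mulVec u) =
      ∑ m' ∈ range m, mon x y z i m' * ev x y z A m' u := by
  have lhs : ev x y z A m ((mat F n A i).mulVec u) =
      ∑ q : Fin (A ^ 4), u q • ∑ p : Fin (A ^ 4),
        if dig A p 0 = m ∧ bit A i p q = true then monIdx x y z A p else 0 := by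
    simp only [ev, Finset.smul_sum]
    rw [Finset.sum_comm]
    refine Finset.sum_congr rfl fun p _ => ?_
    by_cases hp : dig A p 0 = m
    · simp only [hp, if_true, true_and, Matrix.mulVec, dotProduct, Finset.sum_smul, mat]
      refine Finset.sum_congr rfl fun q _ => ?_
      by_cases hb : bit A i p q = true <;> simp [hb]
    · simp [hp]
  have rhs : ∑ m' ∈ range m, mon x y z i m' * ev x y z A m' u =
      ∑ q : Fin (A ^ 4), u q •
        if dig A q 0 < m then mon x y z i (dig A q 0) * monIdx x y z A q else 0 := by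
    simp only [ev, Finset.mul_sum]
    rw [Finset.sum_comm]
    refine Finset.sum_congr rfl fun q _ => ?_
    simp only [mul_ite, mul_zero]
    rw [Finset.sum_ite_eq]
    by_cases hq : dig A q 0 < m <;> simp [hq]
  rw [lhs, rhs]
  refine Finset.sum_congr rfl fun q _ => ?_
  by_cases huq : u q = 0
  · simp [huq]
  congr 1
  by_cases hq : dig A q 0 < m
  · rw [if_pos hq]
    obtain ⟨g1, g2, g3⟩ := hu q huq (by omega)
    obtain ⟨e1, e2, e3⟩ := step_le (n := n) (s := s) (m := dig A q 0) i.isLt (by omega)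
    have key : dig A q 0 * (n * (s * s + 1)) + n * (s * s + 1) ≤ s * (n * (s * s + 1)) := by
      rw [← Nat.succ_mul]
      exact Nat.mul_le_mul_right _ (by omega)
    have hA' : A = s * (n * (s * s + 1)) + s + 1 := hA
    obtain ⟨p, p0, p1, p2, p3⟩ := exists_dig (A := A) (m := m)
      (a := dig A q 1 + (i + 1) * (dig A q 0 * (dig A q 0 - 1) / 2))
      (b := dig A q 2 + (i + 1) * dig A q 0) (c := dig A q 3 + (i + 1))
      (by omega) (by omega) (by omega) (by omega)
    rw [Finset.sum_eq_single p]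
    · rw [if_pos ⟨p0, by simp only [bit, decide_eq_true_eq]; exact ⟨by omega, p1, p2, p3⟩⟩]
      simp only [monIdx, mon, p1, p2, p3]
      ring
    · intro p' _ hp'
      rw [if_neg]
      rintro ⟨h0, hb⟩
      simp only [bit, decide_eq_true_eq] at hb
      exact hp' (dig_ext (by omega) (by omega) (by omega) (by omega))
    · simp
  · rw [if_neg hq]
    refine Finset.sum_eq_zero fun p _ => if_neg ?_
    rintro ⟨h0, hb⟩
    simp only [bit, decide_eq_true_eq] at hb
    omega

/-- The start vector. -/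
def vec0 (F : Type*) [Field F] (A : ℕ) : Fin (A ^ 4) → F :=
  fun p => if dig A p 1 = 0 ∧ dig A p 2 = 0 ∧ dig A p 3 = 0 then 1 else 0

theorem good_vec0 (B s A : ℕ) : Good B s A (vec0 F A) := by
  intro p hp _
  have h : dig A p 1 = 0 ∧ dig A p 2 = 0 ∧ dig A p 3 = 0 := by
    by_contra h
    exact hp (if_neg h)
  omega

theorem ev_vec0 (x y z : L) {A m : ℕ} (hm : m < A) : ev x y z A m (vec0 F A) = 1 := by
  obtain ⟨p, p0, p1, p2, p3⟩ := exists_dig (A := A) (m := m) (a := 0) (b := 0) (c := 0) hm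
    (by omega) (by omega) (by omega)
  rw [ev, Finset.sum_eq_single p]
  · simp [vec0, monIdx, p0, p1, p2, p3]
  · intro p' _ hp'
    by_cases h0 : dig A p' 0 = m
    · rw [if_pos h0, vec0, if_neg, zero_smul]
      rintro ⟨h1, h2, h3⟩
      exact hp' (dig_ext (by omega) (by omega) (by omega) (by omega))
    · rw [if_neg h0]
  · simp

theorem ev_word (x y z : L) (s : ℕ) (w : List (Fin n)) :
    Good (n * (s * s + 1)) s (base n s)
        ((w.map (mat F n (base n s))).prod.mulVec (vec0 F (base n s))) ∧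
      ∀ m ≤ s, ev x y z (base n s) m
        ((w.map (mat F n (base n s))).prod.mulVec (vec0 F (base n s))) = S (mon x y z) w m := by
  induction w with
  | nil =>
    simp only [List.map_nil, List.prod_nil, Matrix.one_mulVec, S_nil]
    exact ⟨good_vec0 _ _ _, fun m hm => ev_vec0 x y z (by unfold base; omega)⟩
  | cons i w ih =>
    simp only [List.map_cons, List.prod_cons, ← Matrix.mulVec_mulVec]
    refine ⟨ih.1.mulVec i, fun m hm => ?_⟩
    rw [ev_mulVec x y z rfl ih.1 i hm, S_cons]
    refine Finset.sum_congr rfl fun m' hm' => ?_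
    rw [ih.2 m' (by have := Finset.mem_range.1 hm'; omega)]

/-- `ev` of a matrix applied to the start vector, as a linear map. -/
def evL (F : Type*) [Field F] [Algebra F L] (x y z : L) (A m : ℕ) :
    Matrix (Fin (A ^ 4)) (Fin (A ^ 4)) F →ₗ[F] L where
  toFun M := ev x y z A m (M.mulVec (vec0 F A))
  map_add' M N := by
    simp only [ev, Matrix.add_mulVec, ← Finset.sum_add_distrib]
    refine Finset.sum_congr rfl fun p _ => ?_
    split_ifs <;> simp [add_smul]
  map_smul' c M := by
    simp only [ev, Matrix.smul_mulVec, Finset.smul_sum, RingHom.id_apply]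
    refine Finset.sum_congr rfl fun p _ => ?_
    split_ifs <;> simp [mul_smul]

/-- Transfer: the functionals `lam` factor through the evaluation at the matrices. -/
theorem lam_eq_evL (x y z : L) {s m : ℕ} (hm : m ≤ s) (f : FreeAlgebra F (Fin n)) :
    lam (mon x y z) m f =
      evL F x y z (base n s) m (FreeAlgebra.lift F (mat F n (base n s)) f) := by
  rw [lift_eq_sum, lam, Finsupp.sum, Finsupp.sum, map_sum]
  refine Finset.sum_congr rfl fun w _ => ?_
  rw [map_smul]
  congr 1
  exact ((ev_word (F := F) x y z s (FreeMonoid.toList w)).2 m hm).symm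

theorem lift_mat_ne_zero (x y z : L) {s m : ℕ} (hm : m ≤ s) (f : FreeAlgebra F (Fin n))
    (h : lam (mon x y z) m f ≠ 0) : FreeAlgebra.lift F (mat F n (base n s)) f ≠ 0 := by
  intro h0
  rw [lam_eq_evL x y z hm, h0, map_zero] at h
  exact h rfl

/-- The iterates of `z ^ (i + 1)` under the substitution are the monomials `mon`. -/
theorem iterate_eq_mon (σ : L →ₐ[F] L) {x y z : L} (hx : σ x = x) (hy : σ y = x * y)
    (hz : σ z = y * z) (i : Fin n) (m : ℕ) : σ^[m] (z ^ (i.val + 1)) = mon x y z i m := by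
  induction m with
  | zero => simp [mon]
  | succ m ih =>
    rw [Function.iterate_succ_apply', ih]
    simp only [mon, map_pow, map_mul, hx, hy, hz]
    congr 1
    have h : (m + 1) * (m + 1 - 1) / 2 = m * (m - 1) / 2 + m := by
      rw [← Nat.choose_two_right, ← Nat.choose_two_right, Nat.choose_succ_succ',
        Nat.choose_one_right, add_comm]
    rw [h]
    ring

end

end Vale.Agent.P314
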