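import Mathlib.LinearAlgebra.FreeAlgebra
import Mathlib.LinearAlgebra.FiniteDimensional.Lemmas
import Mathlib.LinearAlgebra.Dimension.Constructions
import Mathlib.LinearAlgebra.Dimension.Finite
import Mathlib.Tactic

/-! The word basis of the free algebra, right quotients, and subspaces closed under right
quotients. -/

namespace Vale.Agent.P314

open Module

variable (F : Type*) [Field F] {ι : Type*}

/-- The basis of words of the free algebra, indexed by lists of letters. -/
noncomputable def wb : Basis (List ι) F (FreeAlgebra F ι) :=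
  (FreeAlgebra.basisFreeMonoid F ι).reindex FreeMonoid.toList

theorem wb_apply (w : List ι) :
    wb F w = FreeMonoid.lift (FreeAlgebra.ι F) (FreeMonoid.ofList w) := by
  simp [wb, FreeAlgebra.basisFreeMonoid, FreeAlgebra.equivMonoidAlgebraFreeMonoid]

@[simp] theorem wb_nil : wb F ([] : List ι) = 1 := by
  simp [wb_apply]

theorem wb_cons (j : ι) (w : List ι) : wb F (j :: w) = FreeAlgebra.ι F j * wb F w := by
  simp [wb_apply, FreeMonoid.ofList_cons]

theorem wb_append (u v : List ι) : wb F (u ++ v) = wb F u * wb F v := by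
  simp [wb_apply, FreeMonoid.ofList_append]

variable [DecidableEq ι]

/-- Right quotient of a word by a letter. -/
noncomputable def rqw (i : ι) : List ι → FreeAlgebra F ι
  | [] => 0
  | j :: w => FreeAlgebra.ι F j * rqw i w + if w = [] ∧ i = j then 1 else 0

/-- Right quotient by a letter. -/
noncomputable def rq (i : ι) : FreeAlgebra F ι →ₗ[F] FreeAlgebra F ι :=
  (wb F).constr F (rqw F i)

/-- The constant term. -/
noncomputable def eps : FreeAlgebra F ι →ₗ[F] F :=
  (wb F).constr F (fun w => if w = [] then 1 else 0)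

theorem rq_wb (i : ι) (w : List ι) : rq F i (wb F w) = rqw F i w := by
  simp [rq]

omit [DecidableEq ι] in
theorem eps_wb (w : List ι) : eps F (wb F w) = if w = [] then 1 else 0 := by
  simp [eps]

theorem rqw_append (i : ι) (u v : List ι) :
    rqw F i (u ++ v) = wb F u * rqw F i v + (if v = [] then (1 : F) else 0) • rqw F i u := by
  induction u with
  | nil => simp [rqw]
  | cons j u ih =>
    rw [List.cons_append, rqw, ih, wb_cons, rqw]
    by_cases hv : v = []
    · subst hv
      simp [rqw]
    · simp [hv, mul_assoc]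

theorem rq_mul (i : ι) (f g : FreeAlgebra F ι) :
    rq F i (f * g) = f * rq F i g + eps F g • rq F i f := by
  have h1 : ∀ (u : List ι) (g : FreeAlgebra F ι),
      rq F i (wb F u * g) = wb F u * rq F i g + eps F g • rq F i (wb F u) := by
    intro u g
    have : (rq F i).comp (LinearMap.mulLeft F (wb F u)) =
        (LinearMap.mulLeft F (wb F u)).comp (rq F i) +
          (eps F).smulRight (rq F i (wb F u)) := by
      refine (wb F).ext fun v => ?_
      simp only [LinearMap.comp_apply, LinearMap.mulLeft_apply, LinearMap.add_apply,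
        LinearMap.smulRight_apply, ← wb_append, rq_wb, eps_wb, rqw_append]
    exact LinearMap.congr_fun this g
  have : (rq F i).comp (LinearMap.mulRight F g) =
      LinearMap.mulRight F (rq F i g) + eps F g • rq F i := by
    refine (wb F).ext fun u => ?_
    simp only [LinearMap.comp_apply, LinearMap.mulRight_apply, LinearMap.add_apply,
      LinearMap.smul_apply, h1]
  exact LinearMap.congr_fun this f

@[simp] theorem rq_one (i : ι) : rq F i (1 : FreeAlgebra F ι) = 0 := by
  rw [← wb_nil, rq_wb, rqw]

theorem rq_ι (i j : ι) : rq F i (FreeAlgebra.ι F j) = if i = j then 1 else 0 := by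
  have : FreeAlgebra.ι F j = wb F [j] := by simp [wb_cons]
  rw [this, rq_wb]
  simp [rqw]

variable {F}

/-- `f` lies in a subspace of dimension at most `r` which is closed under right quotients. -/
def QuotDim (f : FreeAlgebra F ι) (r : ℕ) : Prop :=
  ∃ W : Submodule F (FreeAlgebra F ι), FiniteDimensional F W ∧ finrank F W ≤ r ∧ f ∈ W ∧
    ∀ i, ∀ g ∈ W, rq F i g ∈ W

theorem QuotDim.mono {f : FreeAlgebra F ι} {r r' : ℕ} (h : QuotDim f r) (hr : r ≤ r') :
    QuotDim f r' := by
  obtain ⟨W, h1, h2, h3, h4⟩ := h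
  exact ⟨W, h1, h2.trans hr, h3, h4⟩

theorem QuotDim.add {f g : FreeAlgebra F ι} {r r' : ℕ} (h : QuotDim f r) (h' : QuotDim g r') :
    QuotDim (f + g) (r + r') := by
  obtain ⟨W, h1, h2, h3, h4⟩ := h
  obtain ⟨W', h1', h2', h3', h4'⟩ := h'
  refine ⟨W ⊔ W', inferInstance, ?_, Submodule.add_mem_sup h3 h3', ?_⟩
  · exact (Submodule.finrank_add_le_finrank_add_finrank W W').trans (add_le_add h2 h2')
  · intro i p hp
    obtain ⟨y, hy, z, hz, rfl⟩ := Submodule.mem_sup.1 hp
    rw [map_add]
    exact Submodule.add_mem_sup (h4 i y hy) (h4' i z hz)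

theorem QuotDim.mul {f g : FreeAlgebra F ι} {r r' : ℕ} (h : QuotDim f r) (h' : QuotDim g r') :
    QuotDim (f * g) (r + r') := by
  obtain ⟨W, h1, h2, h3, h4⟩ := h
  obtain ⟨W', h1', h2', h3', h4'⟩ := h'
  refine ⟨W ⊔ W'.map (LinearMap.mulLeft F f), inferInstance, ?_,
    Submodule.mem_sup_right ⟨g, h3', rfl⟩, ?_⟩
  · refine (Submodule.finrank_add_le_finrank_add_finrank W _).trans (add_le_add h2 ?_)
    exact (Submodule.finrank_map_le _ _).trans h2'
  · intro i p hp
    obtain ⟨y, hy, z, ⟨z', hz', rfl⟩, rfl⟩ := Submodule.mem_sup.1 hp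
    rw [map_add, LinearMap.mulLeft_apply, rq_mul, add_comm (f * _), ← add_assoc]
    exact Submodule.add_mem_sup (W.add_mem (h4 i y hy) (W.smul_mem _ (h4 i f h3)))
      ⟨rq F i z', h4' i z' hz', rfl⟩

theorem QuotDim.const (c : F) : QuotDim (algebraMap F (FreeAlgebra F ι) c) 1 := by
  refine ⟨Submodule.span F {1}, inferInstance, ?_, ?_, ?_⟩
  · exact (finrank_span_le_card ({1} : Set (FreeAlgebra F ι))).trans (by simp)
  · rw [Algebra.algebraMap_eq_smul_one]
    exact Submodule.smul_mem _ _ (Submodule.mem_span_singleton_self _)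
  · intro i g hg
    obtain ⟨a, rfl⟩ := Submodule.mem_span_singleton.1 hg
    simp

theorem QuotDim.var (j : ι) : QuotDim (FreeAlgebra.ι F j) 2 := by
  refine ⟨Submodule.span F {1} ⊔ Submodule.span F {FreeAlgebra.ι F j}, inferInstance, ?_,
    Submodule.mem_sup_right (Submodule.mem_span_singleton_self _), ?_⟩
  · refine (Submodule.finrank_add_le_finrank_add_finrank _ _).trans ?_
    have h1 := finrank_span_le_card (R := F) ({1} : Set (FreeAlgebra F ι))
    have h2 := finrank_span_le_card (R := F) ({FreeAlgebra.ι F j} : Set (FreeAlgebra F ι))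
    simp only [Set.toFinset_singleton, Finset.card_singleton] at h1 h2
    omega
  · intro i p hp
    obtain ⟨y, hy, z, hz, rfl⟩ := Submodule.mem_sup.1 hp
    obtain ⟨a, rfl⟩ := Submodule.mem_span_singleton.1 hy
    obtain ⟨b, rfl⟩ := Submodule.mem_span_singleton.1 hz
    refine Submodule.mem_sup_left ?_
    simp only [map_add, map_smul, rq_one, smul_zero, zero_add, rq_ι]
    refine Submodule.smul_mem _ _ ?_
    split_ifs
    · exact Submodule.mem_span_singleton_self _
    · exact Submodule.zero_mem _

end Vale.Agent.P314
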